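import Mathlib

/-!
# The square lemma (linear algebra block of the proof of Seymour's second neighbourhood conjecture)

A commutative square of linear maps with generic coefficients, one arrow injective (Hall in rows),
one arrow surjective (Hall in columns), gives `|Ah| + |Eh| ≤ |G| + |H|`.
-/

open Finset

namespace Vale.Agent.P038.H721

section Generic

variable {V : Type*} [Fintype V] [DecidableEq V]

/-- The field of rational functions in the indeterminates `X (i, (x, u))`, `i : Bool`. -/
abbrev KK (V : Type*) := FractionRing (MvPolynomial (Bool × V × V) ℚ)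

/-- The polynomial entry. -/
noncomputable def rp (R : V → V → Prop) [DecidableRel R] (i : Bool) (x u : V) :
    MvPolynomial (Bool × V × V) ℚ :=
  if R x u then MvPolynomial.X (i, x, u) else 0

/-- The entry in the field. -/
noncomputable def rk (R : V → V → Prop) [DecidableRel R] (i : Bool) (x u : V) : KK V :=
  algebraMap (MvPolynomial (Bool × V × V) ℚ) (KK V) (rp R i x u)

omit [Fintype V] [DecidableEq V] in
theorem rk_zero (R : V → V → Prop) [DecidableRel R] (i : Bool) {x u : V} (h : ¬ R x u) :
    rk R i x u = 0 := by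
  simp [rk, rp, h]

omit [Fintype V] in
theorem det_ne (R : V → V → Prop) [DecidableRel R] (i : Bool) (S : Finset V) (f : S → V)
    (hf : Function.Injective f) (hR : ∀ x : S, R x (f x)) :
    (Matrix.of fun x x' : S => rk R i x' (f x)).det ≠ 0 := by
  have h1 : (Matrix.of fun x x' : S => rk R i (x' : V) (f x)) =
      (Matrix.of fun x x' : S => rp R i (x' : V) (f x)).map
        (algebraMap (MvPolynomial (Bool × V × V) ℚ) (KK V)) := by
    ext x x'
    simp [rk]
  have h2 : (Matrix.of fun x x' : S => rp R i (x' : V) (f x)).det ≠ 0 := by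
    intro h0
    let e : Bool × V × V → ℚ := fun t =>
      if ∃ y : S, (y : V) = t.2.1 ∧ f y = t.2.2 then 1 else 0
    have h3 := congrArg (MvPolynomial.eval e) h0
    rw [RingHom.map_det] at h3
    have h4 : (MvPolynomial.eval e).mapMatrix (Matrix.of fun x x' : S => rp R i (x' : V) (f x))
        = 1 := by
      ext x x'
      simp only [RingHom.mapMatrix_apply, Matrix.map_apply, Matrix.of_apply]
      by_cases hx : x = x'
      · subst hx
        rw [rp, if_pos (hR x)]
        simp only [MvPolynomial.eval_X, Matrix.one_apply_eq]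
        exact if_pos ⟨x, rfl, rfl⟩
      · rw [Matrix.one_apply_ne hx, rp]
        split_ifs with hh
        · simp only [MvPolynomial.eval_X]
          refine if_neg ?_
          rintro ⟨y, hy1, hy2⟩
          have : y = x' := Subtype.ext hy1
          subst this
          exact hx (hf hy2.symm)
        · simp
    rw [h4] at h3
    simp at h3
  rw [h1, ← RingHom.mapMatrix_apply, ← RingHom.map_det]
  intro h
  exact h2 ((IsFractionRing.injective (MvPolynomial (Bool × V × V) ℚ) (KK V))
    (by rw [h, map_zero]))

/-- Row block matrix: rows indexed by `H`, columns indexed by `A`, block = first coordinate. -/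
noncomputable def bm (R : V → V → Prop) [DecidableRel R] (i : Bool) (H A : Finset (V × V)) :
    Matrix {z // z ∈ H} {z // z ∈ A} (KK V) :=
  Matrix.of fun h z => if h.1.1 = z.1.1 then rk R i z.1.2 h.1.2 else 0

theorem bm_inj (R : V → V → Prop) [DecidableRel R] (i : Bool) (H A : Finset (V × V))
    (hall : ∀ a, ∀ S : Finset V, (∀ x ∈ S, (a, x) ∈ A) →
      S.card ≤ (univ.filter fun u => (a, u) ∈ H ∧ ∃ x ∈ S, R x u).card)
    (v : {z // z ∈ A} → KK V) (hv : (bm R i H A).mulVec v = 0) : v = 0 := by
  funext z
  obtain ⟨⟨a, x0⟩, hz⟩ := z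
  let S : Finset V := univ.filter fun x => (a, x) ∈ A
  have hS : ∀ x : S, (a, (x : V)) ∈ A := fun x => (mem_filter.1 x.2).2
  -- Hall
  have hh : ∃ f : S → V, Function.Injective f ∧
      ∀ x : S, f x ∈ univ.filter fun u => (a, u) ∈ H ∧ R x u := by
    rw [← Finset.all_card_le_biUnion_card_iff_exists_injective
      (fun x : S => univ.filter fun u => (a, u) ∈ H ∧ R (x : V) u)]
    intro T
    have h1 := hall a (T.map (Function.Embedding.subtype _)) (by
      intro x hx
      rw [mem_map] at hx
      obtain ⟨y, _, rfl⟩ := hx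
      exact hS y)
    rw [card_map] at h1
    refine h1.trans (card_le_card ?_)
    intro u hu
    rw [mem_filter] at hu
    obtain ⟨_, hu1, x, hx, hxu⟩ := hu
    rw [mem_map] at hx
    obtain ⟨y, hy, rfl⟩ := hx
    rw [mem_biUnion]
    exact ⟨y, hy, mem_filter.2 ⟨mem_univ _, hu1, hxu⟩⟩
  obtain ⟨f, hf, hfR⟩ := hh
  have hfH : ∀ x : S, (a, f x) ∈ H := fun x => (mem_filter.1 (hfR x)).2.1
  have hfR' : ∀ x : S, R x (f x) := fun x => (mem_filter.1 (hfR x)).2.2
  have hd := det_ne R i S f hf hfR'
  let w : S → KK V := fun x => v ⟨(a, (x : V)), hS x⟩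
  have hw : (Matrix.of fun x x' : S => rk R i (x' : V) (f x)).mulVec w = 0 := by
    funext x
    have h1 := congrFun hv ⟨(a, f x), hfH x⟩
    rw [Pi.zero_apply] at h1 ⊢
    rw [← h1]
    simp only [Matrix.mulVec, dotProduct, Matrix.of_apply, bm]
    refine Fintype.sum_of_injective (fun x' : S => (⟨(a, (x' : V)), hS x'⟩ : {z // z ∈ A})) ?_ _ _
      ?_ ?_
    · intro y y' hyy
      have := congrArg (fun t : {z // z ∈ A} => t.1.2) hyy
      exact Subtype.ext this
    · intro t ht
      by_cases hta : a = t.1.1
      · exfalso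
        apply ht
        refine ⟨⟨t.1.2, mem_filter.2 ⟨mem_univ _, ?_⟩⟩, ?_⟩
        · rw [hta]; exact t.2
        · apply Subtype.ext
          exact Prod.ext hta rfl
      · rw [if_neg hta, zero_mul]
    · intro x'
      simp [w]
  have h0 := Matrix.eq_zero_of_mulVec_eq_zero hd hw
  have := congrFun h0 ⟨x0, mem_filter.2 ⟨mem_univ _, hz⟩⟩
  exact this

end Generic

variable {V : Type*} [Fintype V] [DecidableEq V]

/-- The swapped set. -/
def sw (A : Finset (V × V)) : Finset (V × V) := univ.filter fun z => (z.2, z.1) ∈ A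

theorem mem_sw {A : Finset (V × V)} {z : V × V} : z ∈ sw A ↔ (z.2, z.1) ∈ A := by
  simp [sw]

/-- Column block matrix. -/
noncomputable def cm (R : V → V → Prop) [DecidableRel R] (i : Bool) (E H : Finset (V × V)) :
    Matrix {z // z ∈ E} {z // z ∈ H} (KK V) :=
  Matrix.of fun e h => if h.1.2 = e.1.2 then rk R i e.1.1 h.1.1 else 0

/-- **The square lemma.** -/
theorem sq_key (R : V → V → Prop) [DecidableRel R] (Ah G H Eh : Finset (V × V))
    (s1 : ∀ a a' x u, (a, x) ∈ Ah → R a' a → R x u → (a', u) ∈ Eh → (a', x) ∈ G)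
    (s2 : ∀ a a' x u, (a, x) ∈ Ah → R a' a → R x u → (a', u) ∈ Eh → (a, u) ∈ H)
    (H1 : ∀ a, ∀ S : Finset V, (∀ x ∈ S, (a, x) ∈ Ah) →
      S.card ≤ (univ.filter fun u => (a, u) ∈ H ∧ ∃ x ∈ S, R x u).card)
    (H2 : ∀ u, ∀ S : Finset V, (∀ a' ∈ S, (a', u) ∈ Eh) →
      S.card ≤ (univ.filter fun a => (a, u) ∈ H ∧ ∃ a' ∈ S, R a' a).card) :
    Ah.card + Eh.card ≤ G.card + H.card := by
  classical
  let M1 : Matrix {z // z ∈ H} {z // z ∈ Ah} (KK V) := bm R true H Ah
  let M2 : Matrix {z // z ∈ Eh} {z // z ∈ H} (KK V) := cm R false Eh H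
  let M3 : Matrix {z // z ∈ G} {z // z ∈ Ah} (KK V) := cm R false G Ah
  let M4 : Matrix {z // z ∈ Eh} {z // z ∈ G} (KK V) := bm R true Eh G
  -- commutation
  have hcomm : M2 * M1 = M4 * M3 := by
    ext e z
    have hL : (M2 * M1) e z = rk R false e.1.1 z.1.1 * rk R true z.1.2 e.1.2 := by
      rw [Matrix.mul_apply]
      by_cases hm : (z.1.1, e.1.2) ∈ H
      · rw [Finset.sum_eq_single (⟨(z.1.1, e.1.2), hm⟩ : {z // z ∈ H})]
        · simp [M1, M2, cm, bm]
        · intro b _ hb
          simp only [M1, M2, cm, bm, Matrix.of_apply]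
          by_cases h1 : b.1.2 = e.1.2
          · by_cases h2 : b.1.1 = z.1.1
            · exact absurd (Subtype.ext (Prod.ext h2 h1)) hb
            · rw [if_neg h2, mul_zero]
          · rw [if_neg h1, zero_mul]
        · intro h; exact absurd (mem_univ _) h
      · have h0 : rk R false e.1.1 z.1.1 * rk R true z.1.2 e.1.2 = 0 := by
          by_cases h1 : R e.1.1 z.1.1
          · by_cases h2 : R z.1.2 e.1.2
            · exact absurd (s2 z.1.1 e.1.1 z.1.2 e.1.2 z.2 h1 h2 e.2) hm
            · rw [rk_zero R true h2, mul_zero]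
          · rw [rk_zero R false h1, zero_mul]
        rw [h0]
        refine Finset.sum_eq_zero fun b _ => ?_
        simp only [M1, M2, cm, bm, Matrix.of_apply]
        by_cases h1 : b.1.2 = e.1.2
        · by_cases h2 : b.1.1 = z.1.1
          · exfalso
            apply hm
            rw [← h1, ← h2]
            exact b.2
          · rw [if_neg h2, mul_zero]
        · rw [if_neg h1, zero_mul]
    have hR : (M4 * M3) e z = rk R false e.1.1 z.1.1 * rk R true z.1.2 e.1.2 := by
      rw [Matrix.mul_apply]
      by_cases hm : (e.1.1, z.1.2) ∈ G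
      · rw [Finset.sum_eq_single (⟨(e.1.1, z.1.2), hm⟩ : {z // z ∈ G})]
        · simp [M3, M4, cm, bm, mul_comm]
        · intro b _ hb
          simp only [M3, M4, cm, bm, Matrix.of_apply]
          by_cases h1 : e.1.1 = b.1.1
          · by_cases h2 : z.1.2 = b.1.2
            · exact absurd (Subtype.ext (Prod.ext h1.symm h2.symm)) hb
            · rw [if_neg h2, mul_zero]
          · rw [if_neg h1, zero_mul]
        · intro h; exact absurd (mem_univ _) h
      · have h0 : rk R false e.1.1 z.1.1 * rk R true z.1.2 e.1.2 = 0 := by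
          by_cases h1 : R e.1.1 z.1.1
          · by_cases h2 : R z.1.2 e.1.2
            · exact absurd (s1 z.1.1 e.1.1 z.1.2 e.1.2 z.2 h1 h2 e.2) hm
            · rw [rk_zero R true h2, mul_zero]
          · rw [rk_zero R false h1, zero_mul]
        rw [h0]
        refine Finset.sum_eq_zero fun b _ => ?_
        simp only [M3, M4, cm, bm, Matrix.of_apply]
        by_cases h1 : e.1.1 = b.1.1
        · by_cases h2 : z.1.2 = b.1.2
          · exfalso
            apply hm
            rw [h1, h2]
            exact b.2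
          · rw [if_neg h2, mul_zero]
        · rw [if_neg h1, zero_mul]
    rw [hL, hR]
  -- injectivity of M1
  have hinj1 : ∀ v, M1.mulVec v = 0 → v = 0 := fun v hv => bm_inj R true H Ah H1 v hv
  -- injectivity of the transpose of M2
  have hinj2 : ∀ c : {z // z ∈ Eh} → KK V, M2.transpose.mulVec c = 0 → c = 0 := by
    intro c hc
    let c' : {z // z ∈ sw Eh} → KK V := fun z => c ⟨(z.1.2, z.1.1), mem_sw.1 z.2⟩
    have h1 : (bm R false (sw H) (sw Eh)).mulVec c' = 0 := by
      funext h
      have h2 := congrFun hc ⟨(h.1.2, h.1.1), mem_sw.1 h.2⟩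
      rw [Pi.zero_apply] at h2 ⊢
      rw [← h2]
      simp only [Matrix.mulVec, dotProduct, Matrix.of_apply, bm, M2, cm, Matrix.transpose_apply]
      refine Fintype.sum_equiv
        { toFun := fun z : {z // z ∈ sw Eh} => (⟨(z.1.2, z.1.1), mem_sw.1 z.2⟩ : {z // z ∈ Eh})
          invFun := fun z => ⟨(z.1.2, z.1.1), mem_sw.2 z.2⟩
          left_inv := fun z => rfl
          right_inv := fun z => rfl } _ _ ?_
      intro z
      rfl
    have h3 := bm_inj R false (sw H) (sw Eh) (by
      intro u S hS
      refine (H2 u S fun a' ha' => mem_sw.1 (hS a' ha')).trans (card_le_card ?_)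
      intro a ha
      rw [mem_filter] at ha ⊢
      exact ⟨mem_univ _, mem_sw.2 ha.2.1, ha.2.2⟩) c' h1
    funext z
    have h4 := congrFun h3 ⟨(z.1.2, z.1.1), mem_sw.2 z.2⟩
    exact h4
  -- dimensions
  have hk : LinearMap.ker M3.mulVecLin ≤ (LinearMap.ker M2.mulVecLin).comap M1.mulVecLin := by
    intro v hv
    rw [LinearMap.mem_ker, Matrix.mulVecLin_apply] at hv
    rw [Submodule.mem_comap, LinearMap.mem_ker, Matrix.mulVecLin_apply, Matrix.mulVecLin_apply,
      Matrix.mulVec_mulVec, hcomm, ← Matrix.mulVec_mulVec, hv, Matrix.mulVec_zero]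
  have hinj : Function.Injective M1.mulVecLin := by
    rw [← LinearMap.ker_eq_bot, LinearMap.ker_eq_bot']
    intro v hv
    exact hinj1 v (by rwa [Matrix.mulVecLin_apply] at hv)
  have d1 : Module.finrank (KK V) (LinearMap.ker M3.mulVecLin) ≤
      Module.finrank (KK V) (LinearMap.ker M2.mulVecLin) := by
    let φ : LinearMap.ker M3.mulVecLin →ₗ[KK V] LinearMap.ker M2.mulVecLin :=
      M1.mulVecLin.restrict hk
    have hφ : Function.Injective φ := by
      intro x y hxy
      have := congrArg Subtype.val hxy
      exact Subtype.ext (hinj this)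
    exact LinearMap.finrank_le_finrank_of_injective hφ
  have d3 := LinearMap.finrank_range_add_finrank_ker M3.mulVecLin
  have d3' : Module.finrank (KK V) (LinearMap.range M3.mulVecLin) ≤ G.card := by
    have := Submodule.finrank_le (LinearMap.range M3.mulVecLin)
    rw [Module.finrank_fintype_fun_eq_card, Fintype.card_coe] at this
    exact this
  have d2 := LinearMap.finrank_range_add_finrank_ker M2.mulVecLin
  have d2' : Module.finrank (KK V) (LinearMap.range M2.mulVecLin) = Eh.card := by
    have h1 : M2.rank = M2.transpose.rank := (Matrix.rank_transpose M2).symm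
    have h2 : M2.transpose.rank = Eh.card := by
      rw [Matrix.rank]
      have h3 := LinearMap.finrank_range_add_finrank_ker M2.transpose.mulVecLin
      have h4 : LinearMap.ker M2.transpose.mulVecLin = ⊥ := by
        rw [LinearMap.ker_eq_bot']
        intro c hc
        exact hinj2 c (by rwa [Matrix.mulVecLin_apply] at hc)
      rw [h4, finrank_bot, add_zero, Module.finrank_fintype_fun_eq_card, Fintype.card_coe] at h3
      exact h3
    have h5 : M2.rank = Module.finrank (KK V) (LinearMap.range M2.mulVecLin) := rfl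
    rw [← h5, h1, h2]
  rw [Module.finrank_fintype_fun_eq_card, Fintype.card_coe] at d3 d2
  omega

end Vale.Agent.P038.H721
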