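import Vale.Agent.P038.H465.Base

/-! P038, block F (final contradiction) of helper465's split. -/

namespace Vale.Agent.P038.H721

open Finset Vale.Agent.P038.H465

attribute [local instance] Classical.propDecidable

variable {V : Type} [Fintype V]

theorem mem_cl {D : V → V → Prop} {S : Finset V} {u : V} : u ∈ cl D S ↔ ∃ x ∈ S, R D x u := by
  simp [cl]

theorem mem_int {D : V → V → Prop} {S : Finset V} {x : V} :
    x ∈ int D S ↔ ∀ y, R D x y → y ∈ S := by
  simp [int]

theorem mem_er {D : V → V → Prop} {S : Finset V} {z : V} :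
    z ∈ er D S ↔ ∀ z', R D z' z → z' ∈ S := by
  simp [er]

theorem mem_cm {D : V → V → Prop} {S : Finset V} {x : V} :
    x ∈ cm D S ↔ ∃ y ∈ S, R D x y := by
  simp [cm]

omit [Fintype V] in
theorem R_self (D : V → V → Prop) (a : V) : R D a a := Or.inl rfl

theorem sub_cl (D : V → V → Prop) (S : Finset V) : S ⊆ cl D S := fun x hx =>
  mem_cl.2 ⟨x, hx, R_self D x⟩

theorem cl_compl (D : V → V → Prop) (S : Finset V) : cl D Sᶜ = (er D S)ᶜ := by
  ext u
  rw [mem_cl, mem_compl, mem_er]
  push Not
  constructor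
  · rintro ⟨x, hx, hxu⟩
    exact ⟨x, hxu, by rwa [mem_compl] at hx⟩
  · rintro ⟨x, hxu, hx⟩
    exact ⟨x, by rwa [mem_compl], hxu⟩

theorem final : StFinal V := by
  intro D B U hO F hmin hmin' hG hout hne
  -- the sets
  set X : V → Finset V := fun a => int D (B a) with hX
  set L : V → Finset V := fun a => cl D (X a) with hL
  set U0 : V → Finset V := fun x => (U x).erase x with hU0
  set W : V → Finset V := fun x => cm D (U0 x) with hW
  set M0 : V → Finset V := fun x => er D (W x) with hM0
  set M : V → Finset V := fun x => insert x (M0 x) with hM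
  have LB : ∀ a, L a ⊆ B a := by
    intro a u hu
    obtain ⟨x, hx, hxu⟩ := mem_cl.1 hu
    exact mem_int.1 hx u hxu
  have U0M0 : ∀ x, U0 x ⊆ M0 x := by
    intro x a ha
    refine mem_er.2 fun z' hz' => mem_cm.2 ⟨a, ha, hz'⟩
  have UM : ∀ x, U x ⊆ M x := by
    intro x a ha
    by_cases h : a = x
    · subst h; exact mem_insert_self _ _
    · exact mem_insert_of_mem (U0M0 x (mem_erase.2 ⟨h, ha⟩))
  have aX : ∀ a, a ∈ X a := fun a => mem_int.2 fun y hy => F.refl a y hy
  have bW : ∀ b, b ∉ W b := by
    intro b hb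
    obtain ⟨y, hy, hby⟩ := mem_cm.1 hb
    rw [mem_erase] at hy
    rcases hby with h | h
    · exact hy.1 h.symm
    · exact F.rev b y h hy.2
  have M0W : ∀ b, M0 b ⊆ W b := fun b z hz => mem_er.1 hz z (R_self D z)
  have bM0 : ∀ b, b ∉ M0 b := fun b hb => bW b (M0W b hb)
  have FL : Feas D L M := by
    refine ⟨?_, ?_, ?_⟩
    · intro a x hax
      exact mem_cl.2 ⟨a, aX a, hax⟩
    · intro a x hx
      exact UM x (F.le a x (LB a hx))
    · intro y z hyz hz
      have hne' : z ≠ y := by
        rintro rfl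
        exact hO.1 _ hyz
      rcases mem_insert.1 hz with h | h
      · exact hne' h
      · exact bW y (mem_er.1 h y (Or.inr hyz))
  have clX : ∀ a, cl D (X a) = L a := fun a => rfl
  -- (i)
  have hi : en D L M ≤ en D B U := by
    unfold en
    refine add_le_add (sum_le_sum fun a _ => ?_) (sum_le_sum fun x _ => ?_)
    · have h1 : (L a).card ≤ (B a).card := card_le_card (LB a)
      have h2 : (int D (B a)).card ≤ (int D (L a)).card := by
        refine card_le_card fun x hx => mem_int.2 fun y hy => mem_cl.2 ⟨x, hx, hy⟩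
      omega
    · have h1 : (U x).card ≤ (M x).card := card_le_card (UM x)
      have h2 : (cm D (M x)).card ≤ (cm D (U x)).card := by
        refine card_le_card fun x' hx' => ?_
        obtain ⟨y, hy, hxy⟩ := mem_cm.1 hx'
        rcases mem_insert.1 hy with h | h
        · subst h
          exact mem_cm.2 ⟨y, F.le y y (F.refl y y (R_self D y)), hxy⟩
        · obtain ⟨y', hy', hxy'⟩ := mem_cm.1 (mem_er.1 h x' hxy)
          exact mem_cm.2 ⟨y', mem_of_mem_erase hy', hxy'⟩
      omega
  have hii := hmin' L M FL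
  -- (ii)
  have hsum : ∑ a, h D (X a) + ∑ b, h D (W b)ᶜ ≤ en D L M - en' D L M := by
    have e1 : ∑ a, h D (X a) ≤ ∑ a, ((((L a).card : ℤ) - (int D (L a)).card) -
        (((cl D (L a)).card : ℤ) - (L a).card)) := by
      refine sum_le_sum fun a _ => ?_
      have h1 : (int D (L a)).card ≤ (X a).card := by
        refine card_le_card fun x hx => mem_int.2 fun y hy => LB a (mem_int.1 hx y hy)
      unfold h
      rw [clX]
      omega
    have e2 : ∑ b, h D (W b)ᶜ ≤ ∑ x, ((((cm D (M x)).card : ℤ) - (M x).card) -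
        (((M x).card : ℤ) - (er D (M x)).card)) := by
      refine sum_le_sum fun b _ => ?_
      have k1 : cl D (W b)ᶜ = (M0 b)ᶜ := cl_compl D (W b)
      have k2 : cl D (M0 b)ᶜ = (er D (M0 b))ᶜ := cl_compl D (M0 b)
      have c1 : (M b).card = (M0 b).card + 1 := card_insert_of_notMem (bM0 b)
      have c2 : (W b).card + 1 ≤ (cm D (M b)).card := by
        rw [← card_insert_of_notMem (bW b)]
        refine card_le_card fun x hx => ?_
        rcases mem_insert.1 hx with h | h
        · subst h
          exact mem_cm.2 ⟨x, mem_insert_self _ _, R_self D x⟩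
        · obtain ⟨y, hy, hxy⟩ := mem_cm.1 h
          exact mem_cm.2 ⟨y, mem_insert_of_mem (U0M0 b hy), hxy⟩
      have hb : b ∉ er D (M0 b) := fun hb => bM0 b (mem_er.1 hb b (R_self D b))
      have c3 : (er D (M0 b)).card + 1 ≤ (er D (M b)).card := by
        rw [← card_insert_of_notMem hb]
        refine card_le_card fun x hx => ?_
        rcases mem_insert.1 hx with h | h
        · subst h
          exact mem_er.2 fun z' hz' => FL.le z' x (FL.refl z' x hz')
        · exact mem_er.2 fun z' hz' => mem_insert_of_mem (mem_er.1 h z' hz')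
      have a1 := card_compl_add_card (W b)
      have a2 := card_compl_add_card (M0 b)
      have a3 := card_compl_add_card (er D (M0 b))
      unfold h
      rw [k1, k2]
      omega
    refine (add_le_add e1 e2).trans (le_of_eq ?_)
    unfold en en'
    simp only [sum_sub_distrib]
    ring
  -- all h are nonnegative
  have hnn : ∀ S : Finset V, 0 ≤ h D S := by
    intro S
    by_cases hS : cl D S ⊆ S
    · have : cl D S = S := Subset.antisymm hS (sub_cl D S)
      unfold h
      rw [this, this]
      omega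
    · exact (hG S hS).le
  -- some h (X a) is positive
  have hpos : ∃ a, 0 < h D (X a) := by
    by_contra hcon
    push Not at hcon
    have hcl : ∀ a, cl D (X a) ⊆ X a := by
      intro a
      by_contra hh
      exact absurd (hG _ hh) (not_lt.2 (hcon a))
    -- minimal closed nonempty set
    have hex : ∃ S : Finset V, S.Nonempty ∧ cl D S ⊆ S := ⟨univ, univ_nonempty, subset_univ _⟩
    obtain ⟨S, hS1, hS2⟩ := exists_min_image (univ.filter fun S : Finset V =>
      S.Nonempty ∧ cl D S ⊆ S) Finset.card (by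
        obtain ⟨S, hS⟩ := hex
        exact ⟨S, mem_filter.2 ⟨mem_univ _, hS⟩⟩)
    have hSn := (mem_filter.1 hS1).2.1
    have hSc := (mem_filter.1 hS1).2.2
    obtain ⟨b, hb⟩ := hSn
    obtain ⟨a, hba⟩ := hout b
    have ha : a ∈ S := hSc (mem_cl.2 ⟨b, hb, Or.inr hba⟩)
    have hT : X a ∩ S ∈ univ.filter fun S : Finset V => S.Nonempty ∧ cl D S ⊆ S := by
      refine mem_filter.2 ⟨mem_univ _, ⟨a, mem_inter.2 ⟨aX a, ha⟩⟩, ?_⟩
      intro u hu
      obtain ⟨x, hx, hxu⟩ := mem_cl.1 hu
      rw [mem_inter] at hx ⊢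
      exact ⟨hcl a (mem_cl.2 ⟨x, hx.1, hxu⟩), hSc (mem_cl.2 ⟨x, hx.2, hxu⟩)⟩
    have hcard := hS2 _ hT
    have heq : X a ∩ S = S := eq_of_subset_of_card_le inter_subset_right hcard
    have hbX : b ∈ X a := by
      rw [← heq] at hb
      exact (mem_inter.1 hb).1
    have hbB : b ∈ B a := LB a (sub_cl D _ hbX)
    exact F.rev b a hba (F.le a b hbB)
  obtain ⟨a0, ha0⟩ := hpos
  have s1 : 0 < ∑ a, h D (X a) := sum_pos' (fun a _ => hnn _) ⟨a0, mem_univ _, ha0⟩
  have s2 : 0 ≤ ∑ b, h D (W b)ᶜ := sum_nonneg fun b _ => hnn _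
  linarith

end Vale.Agent.P038.H721
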